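import Vale.Agent.P088.R2.H820.E.Big

/-!
# P088, stage 3, EST': the payments of the costs of the tubes

`pay_T1`, `pay_T2 : PayE L k j` for all `j`.
-/

open MeasureTheory Set Filter
open scoped ContDiff Topology

set_option linter.unusedSectionVars false

noncomputable section

namespace Vale.Agent.P088.R2.H820.E

open Vale.Agent.P088.LR Vale.Agent.P088.R2.H31.EP
open Vale.Agent.P088.HY hiding rr
open Vale.Agent.P088.R2.H710.GP
open Vale.Agent.P088.R2.H867.EP
open Vale.Agent.P088.R2.H455.E Vale.Agent.P088.R2.H551.E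
open Vale.Agent.P088.R2.H446.E (Fz evFz ev_sq nbM_c' nbM_rT sq_M PayE.of pay_T1_I pay_T2_I
  coT1_zero coT2_zero)
open Vale.Agent.P088.R2.H509.PT
open Vale.Agent.P088.R2.H338.TC (Na)
open Vale.Agent.P088.R2.H747.A (GG)
open Vale.Agent.P088.R2.H354.T (etx ety etx_mem ety_mem)

variable {n : ℕ} {q : Cst} {d : Pk n} {z : VV n} {j : Zo}

/-- The payment of the cost of `T1` from the sizes of the letters. -/
theorem payT1_of {L : Lc n} (hL : L.Ok) {κ₀ ζ₀ : Cst → ℝ} (hN : RowNn (Mz L) κ₀ ζ₀)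
    {c : Cst → ℝ} (hc : NB_M₀ c) (H : EvC fun q => 0 < c q ∧ ∀ d : Pk n, PkOk q d → ∀ z,
      etx q d z ≠ 0 → d.ch q j z ≠ 0 →
      Big (Mz L q d j) (1 / 4) (c q) (Na d z) (Na d z ^ 2) (Na d z ^ 3) z) :
    PayE L .T1 j := by
  have e1 := ev_sq (X := fun q => 34 * L.CT q) (c := fun _ => 1 / 4)
    (fun q => by simp only [nbM_c' hL.CT.2 q]) (fun _ => rfl) (fun _ => by norm_num)
  have e2 := ev_sq (X := fun q => 34 * L.CT q) (c := psv c)
    (fun q => by simp only [nbM_c' hL.CT.2 q]) (psv_nb hc) (psv_pos c)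
  refine PayE.of fun e => ?_
  refine (((evFz n).and (e1.and e2)).and (H.and hN)).mono ?_
  rintro q ⟨⟨hq, h1, h2⟩, ⟨h3, h4⟩, -, -, h5⟩ d h z hj a b
  have hM := h.N_ge (d.u0 z)
  have hm := etx_mem q d z
  by_cases he : etx q d z = 0
  · have e3 : coz L e q d .T1 = coT1 (L.CT q) (Na d) (etx q d) := rfl
    unfold den fden
    rw [e3, coT1_zero he, mul_zero]
    exact H850.E.dens_nonneg (h5 d h j z hj).1
  · rw [psv_eq h3] at h2
    exact coT1_le (h4 d h z he hj) (h.N_pos hq.M1 (d.u0 z)) (by norm_num) (hL.CT.1 q).le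
      hm.1 hm.2 (sq_M (by norm_num) h1 hM) (sq_M h3.le h2 hM)

theorem payT2_of {L : Lc n} (hL : L.Ok) {κ₀ ζ₀ : Cst → ℝ} (hN : RowNn (Mz L) κ₀ ζ₀)
    {c : Cst → ℝ} (hc : NB_M₀ c) (H : EvC fun q => 0 < c q ∧ ∀ d : Pk n, PkOk q d → ∀ z,
      ety q d z ≠ 0 → d.ch q j z ≠ 0 →
      Big (Mz L q d j) (1 / 4) (c q) (Na d z) (Na d z ^ 3) (Na d z ^ 2) z) :
    PayE L .T2 j := by
  have e1 := ev_sq (X := fun q => 34 * L.CT q) (c := fun _ => 1 / 4)
    (fun q => by simp only [nbM_c' hL.CT.2 q]) (fun _ => rfl) (fun _ => by norm_num)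
  have e2 := ev_sq (X := fun q => 34 * L.CT q) (c := psv c)
    (fun q => by simp only [nbM_c' hL.CT.2 q]) (psv_nb hc) (psv_pos c)
  refine PayE.of fun e => ?_
  refine (((evFz n).and (e1.and e2)).and (H.and hN)).mono ?_
  rintro q ⟨⟨hq, h1, h2⟩, ⟨h3, h4⟩, -, -, h5⟩ d h z hj a b
  have hM := h.N_ge (d.u0 z)
  have hm := ety_mem q d z
  by_cases he : ety q d z = 0
  · have e3 : coz L e q d .T2 = coT2 (L.CT q) (Na d) (ety q d) := rfl
    unfold den fden
    rw [e3, coT2_zero he, mul_zero]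
    exact H850.E.dens_nonneg (h5 d h j z hj).1
  · rw [psv_eq h3] at h2
    exact coT2_le (h4 d h z he hj) (h.N_pos hq.M1 (d.u0 z)) (by norm_num) (hL.CT.1 q).le
      hm.1 hm.2 (sq_M (by norm_num) h1 hM) (sq_M h3.le h2 hM)

/-- The leaves which do not meet the costs of both tubes. -/
theorem both_dead (hq : PX n q) (h : PkOk q d) (hz : TE q d z)
    (hj : j = .z0 ∨ j = .z2a ∨ j = .z2b ∨ j = .zB ∨ j = .iH ∨ j = .iF ∨ j = .iS ∨ j = .RSn ∨
      j = .RSf ∨ j = .Af) : d.ch q j z = 0 := by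
  rcases hj with rfl | rfl | rfl | rfl | rfl | rfl | rfl | rfl | rfl | rfl
  · exact near_dead hq.db h hz (by simp)
  · exact near_dead hq.db h hz (by simp)
  · exact near_dead hq.db h hz (by simp)
  · exact near_dead hq.db h hz (by simp)
  · exact inf_dead hz (by unfold Inf; decide)
  · exact inf_dead hz (by unfold Inf; decide)
  · exact inf_dead hz (by unfold Inf; decide)
  · exact RS_dead hq.tc h hz (by unfold RS; decide)
  · exact RS_dead hq.tc h hz (by unfold RS; decide)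
  · exact Af_dead hq.tc h hz

/-- **The payments of the cost of `T1`.** -/
theorem pay_T1 {L : Lc n} (hL : L.Ok) (hG : L.GP = GG) {κ₀ ζ₀ : Cst → ℝ}
    (hN : RowNn (Mz L) κ₀ ζ₀) (j : Zo) : PayE L .T1 j := by
  have one : NB_M₀ (fun _ : Cst => (1 : ℝ)) := fun _ => rfl
  have D : ∀ j : Zo, (j = .z0 ∨ j = .z2a ∨ j = .z2b ∨ j = .zB ∨ j = .iH ∨ j = .iF ∨ j = .iS ∨
      j = .RSn ∨ j = .RSf ∨ j = .Af) ∨ (j = .T2 ∨ j = .P2 ∨ j = .A2) → PayE L .T1 j := by
    intro j hj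
    refine payT1_of hL hN one ((evPX n).mono fun q hq => ⟨one_pos, fun d h z he hc => ?_⟩)
    obtain ⟨hz, hg⟩ := te_x hq.tc h he
    rcases hj with hj | hj
    · exact absurd (both_dead hq h hz hj) hc
    · exact absurd (x_dead hq.tc h hz hg hj) hc
  cases j with
  | z0 => exact D _ (by simp)
  | zI => exact pay_T1_I hL
  | z2a => exact D _ (by simp)
  | z2b => exact D _ (by simp)
  | zB => exact D _ (by simp)
  | T1 =>
    refine payT1_of hL hN (nbM_rT hL.cT.2) ((evFz n).mono fun q _ => ⟨hL.cT.1 q,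
      fun d h z he hc => ?_⟩)
    have hb := big_T1 (L.cT q) (Na d) z
    exact ⟨by norm_num [MT1, Mz], hb.ζ₁, hb.ζ₂, hb.ζy, hb.w₁, hb.w₂, hb.wb, hb.wc⟩
  | T2 => exact D _ (by simp)
  | A1 =>
    refine payT1_of hL hN (cA_nb hL) ((evPX n).mono fun q hq => ⟨cA_pos hL hq,
      fun d h z he hc => ?_⟩)
    obtain ⟨hz, hg⟩ := te_x hq.tc h he
    have hN1 := Na_one hq h z
    have hb := big_MA hL hq h hz (Or.inl rfl) hc
    exact hb.mono (by norm_num) le_rfl (by linarith)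
      (mul_le_mul_of_nonneg_left (cub hN1) (cA_pos hL hq).le) le_rfl
  | A2 => exact D _ (by simp)
  | Af => exact D _ (by simp)
  | P1 =>
    refine payT1_of hL hN (cQ_nb hL) ((evPX n).mono fun q hq => ⟨cQ_pos hL,
      fun d h z he hc => ?_⟩)
    obtain ⟨hz, hg⟩ := te_x hq.tc h he
    exact big_MP hL hG hq h hz hg hc
  | P2 => exact D _ (by simp)
  | iH => exact D _ (by simp)
  | iF => exact D _ (by simp)
  | iS => exact D _ (by simp)
  | RSn => exact D _ (by simp)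
  | RSf => exact D _ (by simp)

/-- **The payments of the cost of `T2`.** -/
theorem pay_T2 {L : Lc n} (hL : L.Ok) (hG : L.GP = GG) {κ₀ ζ₀ : Cst → ℝ}
    (hN : RowNn (Mz L) κ₀ ζ₀) (j : Zo) : PayE L .T2 j := by
  have one : NB_M₀ (fun _ : Cst => (1 : ℝ)) := fun _ => rfl
  have D : ∀ j : Zo, (j = .z0 ∨ j = .z2a ∨ j = .z2b ∨ j = .zB ∨ j = .iH ∨ j = .iF ∨ j = .iS ∨
      j = .RSn ∨ j = .RSf ∨ j = .Af) ∨ (j = .T1 ∨ j = .P1 ∨ j = .A2) → PayE L .T2 j := by
    intro j hj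
    refine payT2_of hL hN one ((evPX n).mono fun q hq => ⟨one_pos, fun d h z he hc => ?_⟩)
    obtain ⟨hz, hg⟩ := te_y hq.tc h he
    rcases hj with hj | hj
    · exact absurd (both_dead hq h hz hj) hc
    · exact absurd (y_dead hq.tc h hz hg hj) hc
  cases j with
  | z0 => exact D _ (by simp)
  | zI => exact pay_T2_I hL
  | z2a => exact D _ (by simp)
  | z2b => exact D _ (by simp)
  | zB => exact D _ (by simp)
  | T1 => exact D _ (by simp)
  | T2 =>
    refine payT2_of hL hN (nbM_rT hL.cT.2) ((evFz n).mono fun q _ => ⟨hL.cT.1 q,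
      fun d h z he hc => ?_⟩)
    have hb := big_T2 (L.cT q) (Na d) z
    exact ⟨by norm_num [MT2, Mz], hb.ζ₁, hb.ζ₂, hb.ζy, hb.w₁, hb.w₂, hb.wb, hb.wc⟩
  | A1 =>
    refine payT2_of hL hN (cA_nb hL) ((evPX n).mono fun q hq => ⟨cA_pos hL hq,
      fun d h z he hc => ?_⟩)
    obtain ⟨hz, hg⟩ := te_y hq.tc h he
    have hN1 := Na_one hq h z
    have hb := big_MA hL hq h hz (Or.inl rfl) hc
    exact hb.mono (by norm_num) le_rfl (by linarith) le_rfl
      (mul_le_mul_of_nonneg_left (cub hN1) (cA_pos hL hq).le)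
  | A2 => exact D _ (by simp)
  | Af => exact D _ (by simp)
  | P1 => exact D _ (by simp)
  | P2 =>
    refine payT2_of hL hN (cQ_nb hL) ((evPX n).mono fun q hq => ⟨cQ_pos hL,
      fun d h z he hc => ?_⟩)
    obtain ⟨hz, hg⟩ := te_y hq.tc h he
    exact big_MPm hL hG hq h hz hg hc
  | iH => exact D _ (by simp)
  | iF => exact D _ (by simp)
  | iS => exact D _ (by simp)
  | RSn => exact D _ (by simp)
  | RSf => exact D _ (by simp)

end Vale.Agent.P088.R2.H820.E
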