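import Vale.Agent.P088.R2.H820.E.Near
import Vale.Agent.P088.R2.H446.E.TzI
import Vale.Agent.P088.R2.H281.P.Cl
import Vale.Agent.P088.R2.H912.A.Sup

/-!
# P088, stage 3, EST': the sizes of the letters on the support of the costs of the tubes
-/

open MeasureTheory Set Filter
open scoped ContDiff Topology

set_option linter.unusedSectionVars false

noncomputable section

namespace Vale.Agent.P088.R2.H820.E

open Vale.Agent.P088.LR Vale.Agent.P088.R2.H31.EP
open Vale.Agent.P088.HY hiding rr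
open Vale.Agent.P088.R2.H710.GP
open Vale.Agent.P088.R2.H404.INF hiding l₀_eq tinf_eq thi_eq tfs_eq
open Vale.Agent.P088.R2.H867.EP
open Vale.Agent.P088.R2.H455.E
open Vale.Agent.P088.R2.H552.E (DC evD DB evB e2_le exp_q)
open Vale.Agent.P088.R2.H871.E (u_u0)
open Vale.Agent.P088.R2.H281.P (PC evPC wx wy wx_close wy_close Wx2_eq Wy2_eq)
open Vale.Agent.P088.R2.H446.E (Fz evFz F_nn_x F_nn_y ev_sq nbM_c' nbM_rT nbM_c₀)
open Vale.Agent.P088.R2.H509.PT
open Vale.Agent.P088.R2.H338.TC (Na)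
open Vale.Agent.P088.R2.H747.A (GG Wx2 Wy2 mA)
open Vale.Agent.P088.R2.H354.T (etx ety etx_mem ety_mem)

variable {n : ℕ}

/-- The conditions on the constants. -/
structure PX (n : ℕ) (q : Cst) : Prop where
  tc : TC n q
  db : DB n q
  pc : PC n q
  fz : Fz n q
  sup : ∀ d : Pk n, PkOk q d → ∀ k ∈ ({.A1, .A2, .Af} : Set Zo),
    tsupport (d.ch q k) ⊆ H747.A.OmA q d

theorem evPX (n : ℕ) : EvC (PX n) := by
  have h1 := H912.A.rowSup n .A1 (by simp)
  have h2 := H912.A.rowSup n .A2 (by simp)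
  have h3 := H912.A.rowSup n .Af (by simp)
  refine ((((evTC n).and (evB n)).and ((evPC n).and (evFz n))).and (h1.and (h2.and h3))).mono ?_
  rintro q ⟨⟨⟨a1, a2⟩, a3, a4⟩, b1, b2, b3⟩
  refine ⟨a1, a2, a3, a4, fun d h k hk => ?_⟩
  simp only [mem_insert_iff, mem_singleton_iff] at hk
  rcases hk with rfl | rfl | rfl
  · exact (b1 d h).2
  · exact (b2 d h).2
  · exact (b3 d h).2

/-- The lower bound of `GG / N`. -/
def cG (q : Cst) : ℝ := 3 * prS q.e₁ (q.c₀ ^ 2 / 2) / q.nm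

theorem cG_nb : NB_M₀ cG := fun _ => rfl

/-- The positive constant. -/
def cG' (q : Cst) : ℝ := if 0 < cG q then cG q else 1

theorem cG'_pos (q : Cst) : 0 < cG' q := by
  unfold cG'
  split_ifs with h
  · exact h
  · exact one_pos

theorem cG'_nb : NB_M₀ cG' := fun _ => rfl

variable {q : Cst} {d : Pk n} {z : VV n} {j : Zo}

theorem cG_pos (hq : PX n q) : 0 < cG q := by
  have hS : 0 < prS q.e₁ (q.c₀ ^ 2 / 2) := by
    refine hq.db.rad.pp.S_pos ?_
    have := hq.db.c₀0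
    positivity
  have := hq.fz.nm
  unfold cG
  positivity

theorem cG'_eq (hq : PX n q) : cG' q = cG q := if_pos (cG_pos hq)

theorem Na_eq (d : Pk n) (z : VV n) : Na d z = deriv d.Φ (d.u0 z) := rfl

theorem Na_one (hq : PX n q) (h : PkOk q d) (z : VV n) : 1 ≤ Na d z :=
  hq.fz.M1.trans (h.N_ge _)

theorem TE.r2_lo (hq : PX n q) (h : PkOk q d) (hz : TE q d z) :
    q.c₀ ^ 2 / 2 ≤ d.r2 z := by
  have h1 := (hq.db.met d h z).1
  have h2 := hz.q1
  rw [rr_sq] at h1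
  have := sq_nonneg q.c₀
  linarith

theorem TE.r2_pos (hq : PX n q) (h : PkOk q d) (hz : TE q d z) : 0 < d.r2 z := by
  have h1 := hz.r2_lo hq h
  have := hq.db.c₀0
  have : 0 < q.c₀ ^ 2 / 2 := by positivity
  linarith

theorem TE.r2_up (hq : PX n q) (h : PkOk q d) (hz : TE q d z) : d.r2 z ≤ (2 * q.p₁) ^ 2 := by
  have h1 := (hq.db.met d h z).2
  have h3 := hz.r1
  have h4 := hz.r0
  have hp := Cst.p₁_ge hq.db.rad
  have h5 : rr z ^ 2 ≤ (7 / 5 * q.p₁) ^ 2 := pow_le_pow_left₀ h4.le h3.le 2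
  nlinarith

theorem TE.rA (hq : PX n q) (h : PkOk q d) (hz : TE q d z) :
    0 < H747.A.rr d z ∧ H747.A.rr d z ≤ 2 * q.p₁ := by
  have hp := Cst.p₁_ge hq.db.rad
  refine ⟨Real.sqrt_pos.2 (hz.r2_pos hq h), ?_⟩
  exact (Real.sqrt_le_left (by linarith)).2 (hz.r2_up hq h)

/-- **`GG ≥ c N`.** -/
theorem TE.GG_lo (hq : PX n q) (h : PkOk q d) (hz : TE q d z) :
    cG q * Na d z ≤ GG q d z := by
  obtain ⟨r0, r1⟩ := hz.rA hq h
  have hr2 := hz.r2_pos hq h
  have hE := Real.exp_pos (d.u q z)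
  have h1 := h.sl.inn 1 0 (H747.A.ff q d z, H747.A.rr d z) r0
    (lt_of_le_of_lt r1 hq.pc.rc)
  rw [if_pos rfl] at h1
  have e1 : H747.A.rr d z ^ 2 = d.r2 z := Real.sq_sqrt hr2.le
  have hS2 : 0 < prS q.e₁ (d.r2 z) := hq.db.rad.pp.S_pos hr2
  have e2 : GG q d z = Real.exp (d.u q z) * prS q.e₁ (d.r2 z) := by
    have e3 : GG q d z = Real.exp (H747.A.ff q d z) := h1
    rw [e3]
    unfold H747.A.ff H747.A.lS
    rw [Real.exp_add, e1, Real.exp_log hS2]
  have hS : prS q.e₁ (q.c₀ ^ 2 / 2) ≤ prS q.e₁ (d.r2 z) := by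
    have hc : 0 ≤ q.c₀ ^ 2 / 2 := by positivity
    exact H281.EP.prS_mono hq.db.rad.e0 (show q.c₀ ^ 2 / 2 ∈ Ici (0 : ℝ) from hc)
      (show d.r2 z ∈ Ici (0 : ℝ) from hr2.le) (hz.r2_lo hq h)
  have hnm := hq.fz.nm
  have hN := hz.N1
  have hu := abs_le.1 (u_u0 h z)
  have y3 : Real.exp (d.u0 z) ≤ 13 / 10 * Real.exp (d.u q z) := by
    have y0 : Real.exp (d.u0 z) = Real.exp (d.u0 z - d.u q z) * Real.exp (d.u q z) := by
      rw [← Real.exp_add]
      ring_nf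
    rw [y0]
    exact mul_le_mul_of_nonneg_right ((Real.exp_le_exp.2 (by linarith)).trans exp_q.1) hE.le
  have hS0 : 0 ≤ prS q.e₁ (q.c₀ ^ 2 / 2) := by
    have := cG_pos hq
    unfold cG at this
    rw [lt_div_iff₀ hnm] at this
    linarith
  have h5 : Na d z ≤ q.nm / 3 * Real.exp (d.u q z) := by
    rw [Na_eq]
    have h6 := mul_le_mul_of_nonneg_left y3 (by positivity : 0 ≤ q.nm / 4)
    have h7 : 0 < q.nm * Real.exp (d.u q z) := by positivity
    linarith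
  rw [e2]
  calc cG q * Na d z ≤ cG q * (q.nm / 3 * Real.exp (d.u q z)) :=
        mul_le_mul_of_nonneg_left h5 (cG_pos hq).le
    _ = Real.exp (d.u q z) * prS q.e₁ (q.c₀ ^ 2 / 2) := by
        unfold cG
        field_simp
    _ ≤ _ := mul_le_mul_of_nonneg_left hS hE.le

/-- `F ≥ |W_x|² / 2`. -/
theorem F_lo_x (hq : PX n q) (h : PkOk q d) (z : VV n) :
    1 / 2 * Wx2 q d z ≤ d.sx.F (d.W q) z := by
  have h1 := ((hq.fz.bas d h).e₁ z.1 fun i => d.sx.D i (d.W q) z).1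
  have e : d.sx.F (d.W q) z =
      ∑ i, ∑ j, d.s₁ z.1 i j * d.sx.D i (d.W q) z * d.sx.D j (d.W q) z := rfl
  rw [e]
  exact h1

theorem F_lo_y (hq : PX n q) (h : PkOk q d) (z : VV n) :
    1 / 2 * Wy2 q d z ≤ d.sy.F (d.W q) z := by
  have h1 := ((hq.fz.bas d h).e₂ z.2 fun i => d.sy.D i (d.W q) z).1
  have e : d.sy.F (d.W q) z =
      ∑ i, ∑ j, d.s₂ z.2 i j * d.sy.D i (d.W q) z * d.sy.D j (d.W q) z := rfl
  rw [e]
  exact h1

/-! ## Zone A -/

/-- The constant of `F` at zone A. -/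
def cF (q : Cst) : ℝ := 1 / 2 * (q.rT / 8 * cG' q) ^ 2

/-- The constant of the letters of zone A. -/
def cA (L : Lc n) (q : Cst) : ℝ :=
  L.μA q * cG' q / (2 * q.p₁) * min 1 (cF q / 3)

/-- The constant of the letters of the passes. -/
def cQ (L : Lc n) (q : Cst) : ℝ := L.cP q * cG' q * min 1 (cG' q)

/-- The positive constants. -/
def psv (f : Cst → ℝ) (q : Cst) : ℝ := if 0 < f q then f q else 1

theorem psv_pos (f : Cst → ℝ) (q : Cst) : 0 < psv f q := by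
  unfold psv
  split_ifs with h
  · exact h
  · exact one_pos

theorem psv_eq {f : Cst → ℝ} (h : 0 < f q) : psv f q = f q := if_pos h

theorem psv_nb {f : Cst → ℝ} (h : NB_M₀ f) : NB_M₀ (psv f) := fun q => by
  unfold psv
  rw [h q]

theorem cA_nb {L : Lc n} (hL : L.Ok) : NB_M₀ (cA L) := fun q => by
  have h1 := nbM_c' hL.μA.2 q
  unfold cA cF
  rw [h1]
  rfl

theorem cQ_nb {L : Lc n} (hL : L.Ok) : NB_M₀ (cQ L) := fun q => by
  have h1 := nbM_rT hL.cP.2 q
  unfold cQ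
  rw [h1]
  rfl

theorem cF_pos (hq : PX n q) : 0 < cF q := by
  have h1 := hq.fz.rT
  have h2 := cG'_pos q
  unfold cF
  positivity

theorem cA_pos {L : Lc n} (hL : L.Ok) (hq : PX n q) : 0 < cA L q := by
  have h1 := cF_pos hq
  have h2 := cG'_pos q
  have h3 := hL.μA.1 q
  have h4 := Cst.p₁_ge hq.db.rad
  have h5 : 0 < q.p₁ := by linarith
  unfold cA
  have h6 : 0 < min 1 (cF q / 3) := lt_min one_pos (by positivity)
  positivity

theorem cQ_pos {L : Lc n} (hL : L.Ok) : 0 < cQ L q := by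
  have h2 := cG'_pos q
  have h3 := hL.cP.1 q
  have h6 : 0 < min 1 (cG' q) := lt_min one_pos h2
  unfold cQ
  positivity

theorem A_F (hq : PX n q) (h : PkOk q d) (hz : TE q d z)
    (hj : j = .A1 ∨ j = .A2 ∨ j = .Af) (hc : d.ch q j z ≠ 0) :
    cF q * Na d z ^ 2 ≤ d.sx.F (d.W q) z ∧ cF q * Na d z ^ 2 ≤ d.sy.F (d.W q) z := by
  have h1 := hq.sup d h j (by rcases hj with rfl | rfl | rfl <;> simp) (subset_tsupport _ hc)
  obtain ⟨-, h2, h3⟩ := h1
  have hG := hz.GG_lo hq h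
  have hN1 := Na_one hq h z
  have hrT := hq.fz.rT
  have hc0 := cG'_pos q
  rw [← cG'_eq hq] at hG
  have h4 : cG' q * Na d z ≤ H747.A.NG q d z := by
    have h5 : 0 < d.N q z := h.N_pos hq.fz.M1 _
    unfold H747.A.NG
    linarith
  have h6 : (q.rT / 8 * (cG' q * Na d z)) ^ 2 ≤ (q.rT / 8 * H747.A.NG q d z) ^ 2 :=
    pow_le_pow_left₀ (by positivity) (mul_le_mul_of_nonneg_left h4 (by positivity)) 2
  have h7 : (q.rT / 8 * (cG' q * Na d z)) ^ 2 = 2 * (cF q * Na d z ^ 2) := by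
    unfold cF
    ring
  have h8 := F_lo_x hq h z
  have h9 := F_lo_y hq h z
  constructor <;> linarith

theorem mA_lo {L : Lc n} (hL : L.Ok) (hq : PX n q) (h : PkOk q d) (hz : TE q d z) :
    L.μA q * cG' q / (2 * q.p₁) * Na d z ≤ mA L.μA q d z := by
  obtain ⟨r0, r1⟩ := hz.rA hq h
  have hG := hz.GG_lo hq h
  have hN1 := Na_one hq h z
  have hc0 := cG'_pos q
  rw [← cG'_eq hq] at hG
  have h3 := hL.μA.1 q
  have hp := Cst.p₁_ge hq.db.rad
  have hσ := hq.db.inf.σ0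
  have hR := hq.db.inf.R0
  have h4 : 0 ≤ H747.A.NG q d z := by
    have h5 : 0 < d.N q z := h.N_pos hq.fz.M1 _
    have : 0 ≤ cG' q * Na d z := by positivity
    unfold H747.A.NG
    linarith
  have h5 : cG' q * Na d z / (2 * q.p₁) ≤ GG q d z / H747.A.rr d z := by
    have : 0 ≤ cG' q * Na d z := by positivity
    exact div_le_div₀ (this.trans hG) hG r0 r1
  have h6 := mul_le_mul_of_nonneg_left h5 h3.le
  have h7 : 0 ≤ q.σ / (400 * q.R) * H747.A.NG q d z := by positivity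
  have e : L.μA q * cG' q / (2 * q.p₁) * Na d z = L.μA q * (cG' q * Na d z / (2 * q.p₁)) := by
    ring
  rw [e]
  unfold mA
  linarith

/-- `N² ≤ N³`. -/
theorem cub {N : ℝ} (h : 1 ≤ N) : N ^ 2 ≤ N ^ 3 := pow_le_pow_right₀ h (by norm_num)

theorem big_MA {L : Lc n} (hL : L.Ok) (hq : PX n q) (h : PkOk q d) (hz : TE q d z)
    (hj : j = .A1 ∨ j = .A2 ∨ j = .Af) (hc : d.ch q j z ≠ 0) :
    Big (H747.SW.MA d.sx d.sy (d.W q) (mA L.μA q d) (L.kA q)) (1 / 2) (cA L q) (Na d z)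
      (Na d z ^ 3) (Na d z ^ 3) z := by
  obtain ⟨f1, f2⟩ := A_F hq h hz hj hc
  have hN1 := Na_one hq h z
  have hm := mA_lo hL hq h hz
  have c1 := cG'_pos q
  have c2 := cF_pos hq
  have c3 := hL.μA.1 q
  have hp := Cst.p₁_ge hq.db.rad
  have hp0 : 0 < q.p₁ := by linarith
  have hk := (hL.kA.1 q).2
  obtain ⟨c, hce⟩ : ∃ c, c = L.μA q * cG' q / (2 * q.p₁) := ⟨_, rfl⟩
  have hc0 : 0 ≤ c := by rw [hce]; positivity
  rw [← hce] at hm
  have hb := big_A (κ₀ := L.kA q) hm (by linarith) hc0 c2.le f1 f2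
  have eA : cA L q = c * min 1 (cF q / 3) := by rw [hce]; rfl
  have m1 : min 1 (cF q / 3) ≤ 1 := min_le_left _ _
  have m2 : min 1 (cF q / 3) ≤ cF q / 3 := min_le_right _ _
  have hN3 : 0 ≤ Na d z ^ 3 := by positivity
  have k1 : cA L q ≤ c := by
    rw [eA]
    exact mul_le_of_le_one_right hc0 m1
  have k2 : cA L q * Na d z ^ 3 ≤ c * (1 / 3 * cF q * Na d z ^ 3) := by
    rw [eA]
    have h1 := mul_le_mul_of_nonneg_left m2 hc0
    have h2 := mul_le_mul_of_nonneg_right h1 hN3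
    linarith
  exact hb.mono (by linarith) k1 (by linarith) k2 k2

/-! ## The passes -/

theorem en_swap (a b : V n) : en (a - b) = en (b - a) := by
  unfold en HY.sq
  congr 1
  refine Finset.sum_congr rfl fun i _ => ?_
  simp only [Pi.sub_apply]
  ring

/-- The other gradient at the passes. -/
theorem P_F (hq : PX n q) (h : PkOk q d) (hz : TE q d z) (hr : 3 ≤ rr z) :
    (en (gx d q z) ≤ 8 / 5 * q.rT * d.NG q z → Na d z ^ 2 ≤ d.sy.F (d.W q) z) ∧
    (en (gy d q z) ≤ 8 / 5 * q.rT * d.NG q z → Na d z ^ 2 ≤ d.sx.F (d.W q) z) := by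
  have hNG := NG_pos hq.db.toGC h z
  have hrT := hq.db.rT0
  have hrT1 := hq.db.rT1
  have hp1 := Cst.p₁_ge hq.db.rad
  have hN1 := Na_one hq h z
  have hG0 : 0 ≤ d.G0 q z := PkOk.G0_nonneg hq.db.rad z
  have hNle : Na d z ≤ d.NG q z := by
    have e : d.NG q z = deriv d.Φ (d.u0 z) + d.G0 q z := rfl
    rw [e, Na_eq]
    linarith
  have hU : z ∈ (US q : Set (VV n)) := by
    show qq z < (3 * q.p₁) ^ 2
    rw [← rr_sq]
    have h4 := hz.r0
    have h5 : rr z ^ 2 ≤ (7 / 5 * q.p₁) ^ 2 := pow_le_pow_left₀ h4.le hz.r1.le 2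
    nlinarith
  have hu := u_eq hq.pc.toGD h hr
  have h4 : q.rT * d.NG q z ≤ 1 / 400 * d.NG q z := mul_le_mul_of_nonneg_right hrT1 hNG.le
  constructor
  · intro hg
    have h1 := oth_x hq.db.toGC h hz.no hz.r0 (by linarith [hz.r1]) (by linarith) hg
    have h2 := wy_close hq.pc h hz.no (by linarith) hU hu
    have h3 := en_tri (gy d q z - wy q d z) (wy q d z)
    rw [sub_add_cancel] at h3
    have h5 : en (gy d q z - wy q d z) = en (wy q d z - gy d q z) := en_swap _ _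
    rw [h5] at h3
    have h6 : 18 / 10 * Na d z ≤ en (wy q d z) := by linarith
    have h7 := F_lo_y hq h z
    rw [Wy2_eq] at h7
    have h8 : (18 / 10 * Na d z) ^ 2 ≤ en (wy q d z) ^ 2 :=
      pow_le_pow_left₀ (by positivity) h6 2
    nlinarith [sq_nonneg (Na d z)]
  · intro hg
    have h1 := oth_y hq.db.toGC h hz.no hz.r0 (by linarith [hz.r1]) (by linarith) hg
    have h2 := wx_close hq.pc h hz.no (by linarith) hU hu
    have h3 := en_tri (gx d q z - wx q d z) (wx q d z)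
    rw [sub_add_cancel] at h3
    have h5 : en (gx d q z - wx q d z) = en (wx q d z - gx d q z) := en_swap _ _
    rw [h5] at h3
    have h6 : 18 / 10 * Na d z ≤ en (wx q d z) := by linarith
    have h7 := F_lo_x hq h z
    rw [Wx2_eq] at h7
    have h8 : (18 / 10 * Na d z) ^ 2 ≤ en (wx q d z) ^ 2 :=
      pow_le_pow_left₀ (by positivity) h6 2
    nlinarith [sq_nonneg (Na d z)]

theorem P_rr (hq : PX n q) (h : PkOk q d) (hj : j = .P1 ∨ j = .P2) (hc : d.ch q j z ≠ 0) :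
    3 ≤ rr z := by
  have hp1 := Cst.p₁_ge hq.db.rad
  have h1 := sd_P hc (by rcases hj with rfl | rfl <;> simp) (hq.db.cp d h)
  have h2 := (hq.db.met d h z).2
  have h3 := rr_nn z
  by_contra h4
  rw [not_le] at h4
  have h5 := p3_big hq.tc
  have h6 := H509.TG.p₃_lt hq.db.rad
  nlinarith

theorem big_MP {L : Lc n} (hL : L.Ok) (hG : L.GP = GG) (hq : PX n q) (h : PkOk q d)
    (hz : TE q d z) (hg : en (gx d q z) ≤ 8 / 5 * q.rT * d.NG q z) (hc : d.ch q .P1 z ≠ 0) :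
    Big (H660.P.MP d.sx d.sy (d.W q) (L.GP q d) (L.cP q)) (1 / 4) (cQ L q) (Na d z)
      (Na d z ^ 2) (Na d z ^ 3) z := by
  have hr := P_rr hq h (Or.inl rfl) hc
  have hF := (P_F hq h hz hr).1 hg
  have hF1 : 0 ≤ d.sx.F (d.W q) z := F_nn_x hq.fz h z
  have hGG := hz.GG_lo hq h
  have hN1 := Na_one hq h z
  have c1 := cG'_pos q
  have c2 := hL.cP.1 q
  rw [← cG'_eq hq] at hGG
  have hcN : 0 ≤ cG' q * Na d z := by positivity
  have m1 : min 1 (cG' q) ≤ 1 := min_le_left _ _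
  have m2 : min 1 (cG' q) ≤ cG' q := min_le_right _ _
  have k0 : 0 ≤ L.cP q * cG' q := by positivity
  have k1 : cQ L q ≤ L.cP q * cG' q := mul_le_of_le_one_right k0 m1
  have k2 : cQ L q ≤ L.cP q * cG' q * cG' q := mul_le_mul_of_nonneg_left m2 k0
  have hN2 : 0 ≤ Na d z ^ 2 := by positivity
  have hN3 : 0 ≤ Na d z ^ 3 := by positivity
  have z1 : cQ L q * Na d z ≤ L.cP q * GG q d z := by
    have := mul_le_mul_of_nonneg_right k1 (by linarith : 0 ≤ Na d z)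
    have := mul_le_mul_of_nonneg_left hGG c2.le
    linarith
  rw [hG]
  refine ⟨le_rfl, z1, z1, le_rfl, ?_, ?_, le_rfl, le_rfl⟩
  · show cQ L q * Na d z ^ 2 ≤ L.cP q * (GG q d z * (GG q d z + d.sx.F (d.W q) z))
    have a1 : cG' q * Na d z * (cG' q * Na d z) ≤
        GG q d z * (GG q d z + d.sx.F (d.W q) z) :=
      mul_le_mul hGG (by linarith) hcN (hcN.trans hGG)
    have a2 := mul_le_mul_of_nonneg_left a1 c2.le
    have a3 := mul_le_mul_of_nonneg_right k2 hN2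
    linarith
  · show cQ L q * Na d z ^ 3 ≤ L.cP q * (GG q d z * d.sy.F (d.W q) z)
    have a1 : cG' q * Na d z * (Na d z ^ 2) ≤ GG q d z * d.sy.F (d.W q) z :=
      mul_le_mul hGG hF hN2 (hcN.trans hGG)
    have a2 := mul_le_mul_of_nonneg_left a1 c2.le
    have a3 := mul_le_mul_of_nonneg_right k1 hN3
    linarith

theorem big_MPm {L : Lc n} (hL : L.Ok) (hG : L.GP = GG) (hq : PX n q) (h : PkOk q d)
    (hz : TE q d z) (hg : en (gy d q z) ≤ 8 / 5 * q.rT * d.NG q z) (hc : d.ch q .P2 z ≠ 0) :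
    Big (H660.P.MPm d.sx d.sy (d.W q) (L.GP q d) (L.cP q)) (1 / 4) (cQ L q) (Na d z)
      (Na d z ^ 3) (Na d z ^ 2) z := by
  have hr := P_rr hq h (Or.inr rfl) hc
  have hF := (P_F hq h hz hr).2 hg
  have hF1 : 0 ≤ d.sy.F (d.W q) z := F_nn_y hq.fz h z
  have hGG := hz.GG_lo hq h
  have hN1 := Na_one hq h z
  have c1 := cG'_pos q
  have c2 := hL.cP.1 q
  rw [← cG'_eq hq] at hGG
  have hcN : 0 ≤ cG' q * Na d z := by positivity
  have m1 : min 1 (cG' q) ≤ 1 := min_le_left _ _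
  have m2 : min 1 (cG' q) ≤ cG' q := min_le_right _ _
  have k0 : 0 ≤ L.cP q * cG' q := by positivity
  have k1 : cQ L q ≤ L.cP q * cG' q := mul_le_of_le_one_right k0 m1
  have k2 : cQ L q ≤ L.cP q * cG' q * cG' q := mul_le_mul_of_nonneg_left m2 k0
  have hN2 : 0 ≤ Na d z ^ 2 := by positivity
  have hN3 : 0 ≤ Na d z ^ 3 := by positivity
  have z1 : cQ L q * Na d z ≤ L.cP q * GG q d z := by
    have := mul_le_mul_of_nonneg_right k1 (by linarith : 0 ≤ Na d z)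
    have := mul_le_mul_of_nonneg_left hGG c2.le
    linarith
  rw [hG]
  refine ⟨le_rfl, z1, z1, le_rfl, ?_, ?_, le_rfl, le_rfl⟩
  · show cQ L q * Na d z ^ 3 ≤ L.cP q * (GG q d z * d.sx.F (d.W q) z)
    have a1 : cG' q * Na d z * (Na d z ^ 2) ≤ GG q d z * d.sx.F (d.W q) z :=
      mul_le_mul hGG hF hN2 (hcN.trans hGG)
    have a2 := mul_le_mul_of_nonneg_left a1 c2.le
    have a3 := mul_le_mul_of_nonneg_right k1 hN3
    linarith
  · show cQ L q * Na d z ^ 2 ≤ L.cP q * (GG q d z * (GG q d z + d.sy.F (d.W q) z))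
    have a1 : cG' q * Na d z * (cG' q * Na d z) ≤
        GG q d z * (GG q d z + d.sy.F (d.W q) z) :=
      mul_le_mul hGG (by linarith) hcN (hcN.trans hGG)
    have a2 := mul_le_mul_of_nonneg_left a1 c2.le
    have a3 := mul_le_mul_of_nonneg_right k2 hN2
    linarith

end Vale.Agent.P088.R2.H820.E
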