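import Vale.Agent.P088.R2.H820.E.Reg
import Vale.Agent.P088.R2.H552.E.DeadB

/-!
# P088, stage 3, EST': the near leaves on the support of the costs of the tubes

On the region `TE` only the leaf `zI` of the near leaves is alive.
-/

open MeasureTheory Set Filter
open scoped ContDiff Topology

set_option linter.unusedSectionVars false

noncomputable section

namespace Vale.Agent.P088.R2.H820.E

open Vale.Agent.P088.LR Vale.Agent.P088.R2.H31.EP
open Vale.Agent.P088.HY hiding rr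
open Vale.Agent.P088.R2.H710.GP
open Vale.Agent.P088.R2.H404.INF hiding l₀_eq tinf_eq thi_eq tfs_eq
open Vale.Agent.P088.R2.H867.EP
open Vale.Agent.P088.R2.H552.E (DC evD DB evB e2_le exp_q zB_log log_N)
open Vale.Agent.P088.R2.H871.E (u_u0)

variable {n : ℕ} {q : Cst} {d : Pk n} {z : VV n} {k : Zo}

/-- The slope at `u0` on the layer `r ~ c₀`. -/
structure M0 (q : Cst) (d : Pk n) (z : VV n) : Prop where
  r0 : 4 / 5 * q.c₀ ≤ rr z
  r1 : rr z ≤ 203 / 100 * q.c₀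
  n1 : deriv d.Φ (d.u0 z) ≤ 12 / 10 * (rr z * Real.exp (d.u0 z))
  n2 : 8 / 10 * (rr z * Real.exp (d.u0 z)) ≤ deriv d.Φ (d.u0 z)

theorem M0.of (hq : DB n q) (h : PkOk q d) (hT : Tb q d z (8 / 5 * q.rT))
    (g1 : d.r2 z ≤ 4 * q.c₀ ^ 2) (g2 : 64 / 100 * q.c₀ ^ 2 < qq z) : M0 q d z := by
  have hc0 := hq.c₀0
  have hc1 := hq.c₀1
  have hr0 := rr_nn z
  have hr1 := (hq.met d h z).1
  have r0 : 4 / 5 * q.c₀ ≤ rr z := by
    rw [← rr_sq] at g2
    by_contra hc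
    rw [not_le] at hc
    nlinarith
  have r1 : rr z ≤ 203 / 100 * q.c₀ := by
    by_contra hc
    rw [not_le] at hc
    nlinarith
  have hr : 0 < rr z := by linarith
  have hrs : rr z ^ 2 < 1 := by nlinarith
  have pn := H606.EP.pn_ok (e₁ := q.e₁) hq.rad.e0 (sq_nonneg (rr z)) hrs
  have e1 : 2 * rr z * H606.EP.prS₁ q.e₁ (rr z ^ 2) = prL q.e₁ (rr z) * prS q.e₁ (rr z ^ 2) :=
    hq.rad.pp.Ph1_L hr
  have hE0 := Real.exp_pos (d.u0 z)
  have eG : d.G0 q z = Real.exp (d.u0 z) * prS q.e₁ (rr z ^ 2) := by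
    unfold Pk.G0
    rw [rr_sq]
  have eLG : prL q.e₁ (rr z) * d.G0 q z =
      2 * rr z * H606.EP.prS₁ q.e₁ (rr z ^ 2) * Real.exp (d.u0 z) := by
    rw [eG, e1]
    ring
  have lo := hT.lo
  have up := hT.up
  rw [eLG] at lo up
  have eNG : d.NG q z = deriv d.Φ (d.u0 z) + d.G0 q z := rfl
  have hN0 : 0 < deriv d.Φ (d.u0 z) := h.N_pos hq.M1 _
  have hG0 : 0 ≤ d.G0 q z := PkOk.G0_nonneg hq.rad z
  have hNG : 0 < d.NG q z := by linarith
  have hre : 0 < rr z * Real.exp (d.u0 z) := by positivity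
  -- `G₀ ≤ 0.17 r E₀`
  have hG1 : d.G0 q z ≤ 17 / 100 * (rr z * Real.exp (d.u0 z)) := by
    rw [eG]
    have b0 : 8 * rr z ^ 2 ≤ 17 / 100 * rr z := by nlinarith
    have b1 : prS q.e₁ (rr z ^ 2) ≤ 17 / 100 * rr z := pn.hi.trans b0
    have b2 := mul_le_mul_of_nonneg_left b1 hE0.le
    linarith
  -- the slope at `u0`
  have b2 : H606.EP.prS₁ q.e₁ (rr z ^ 2) ≤ 55 / 100 := by
    have b0 : rr z ^ 2 ≤ 1 / 1000 := by nlinarith
    have := pn.h1
    linarith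
  have b3 : 2 * rr z * H606.EP.prS₁ q.e₁ (rr z ^ 2) * Real.exp (d.u0 z) ≤
      11 / 10 * (rr z * Real.exp (d.u0 z)) := by
    have := mul_le_mul_of_nonneg_left b2 hre.le
    linarith
  have b4 : rr z * Real.exp (d.u0 z) ≤
      2 * rr z * H606.EP.prS₁ q.e₁ (rr z ^ 2) * Real.exp (d.u0 z) := by
    have := mul_le_mul_of_nonneg_left pn.l1 hre.le
    linarith
  have hrT := hq.rT0
  have b5 : 98 / 100 * d.NG q z ≤ (1 - 8 / 5 * q.rT - q.σ) * d.NG q z := by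
    refine mul_le_mul_of_nonneg_right ?_ hNG.le
    linarith [hq.rT1, hq.inf.σ1]
  have b6 : (1 + 8 / 5 * q.rT + 3 * q.σ) * d.NG q z ≤ 102 / 100 * d.NG q z := by
    refine mul_le_mul_of_nonneg_right ?_ hNG.le
    linarith [hq.rT1, hq.inf.σ1]
  refine ⟨r0, r1, ?_, ?_⟩
  · clear hr1 g1 g2 r0 r1 hrs b2 pn
    linarith
  · clear hr1 g1 g2 r0 r1 hrs b2 pn
    linarith

/-- The window on the layer `r ~ c₀`. -/
theorem M0.win (hq : DB n q) (h : PkOk q d) (hn : NO q d z) (L : M0 q d z) :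
    ∃ f : ℝ, 9 / 10 ≤ f ∧ f ≤ 2 ∧ Win d f (d.u0 z) := by
  have hc0 := hq.c₀0
  have hc1 := hq.c₀1
  have hE0 := Real.exp_pos (d.u0 z)
  have hN0 : 0 < deriv d.Φ (d.u0 z) := h.N_pos hq.M1 _
  have n1 := L.n1
  have n2 := L.n2
  have n3 : rr z * Real.exp (d.u0 z) ≤ 203 / 100 * q.c₀ * Real.exp (d.u0 z) :=
    mul_le_mul_of_nonneg_right L.r1 hE0.le
  have n4 : 4 / 5 * q.c₀ * Real.exp (d.u0 z) ≤ rr z * Real.exp (d.u0 z) :=
    mul_le_mul_of_nonneg_right L.r0 hE0.le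
  have hce : 0 < q.c₀ * Real.exp (d.u0 z) := by positivity
  have hw := hq.wc
  have hR := hw.R
  have hl0 := l₀_nonneg hq.inf h
  have hl1 : d.l₀ q ≤ 1 / 100 * q.R := by
    have a1 := l₀_le hq.inf h
    have a2 := hq.inf.η1
    have a3 : q.η * q.R ≤ 1 / 200 * q.R := mul_le_mul_of_nonneg_right a2 (by linarith)
    linarith
  have hup : d.u0 z ≤ 2 * d.l₀ q + 93 / 20 * q.R := hn.up
  have e2 := e2_le
  have hν := hw.ν₁
  have w1 : Real.exp 2 * q.ν₁ * Real.exp (d.u0 z) ≤ deriv d.Φ (d.u0 z) := by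
    have c1 : Real.exp 2 * q.ν₁ ≤ 8 / 100 * q.c₀ := by
      have := hq.k3
      have : Real.exp 2 * q.ν₁ ≤ 8 * q.ν₁ := mul_le_mul_of_nonneg_right e2 hν.le
      linarith
    have c2 := mul_le_mul_of_nonneg_right c1 hE0.le
    linarith
  have w2 : Real.exp 2 * deriv d.Φ (d.u0 z) ≤ q.nm * Real.exp (d.u0 z) := by
    have c1 : Real.exp 2 * deriv d.Φ (d.u0 z) ≤ 8 * deriv d.Φ (d.u0 z) :=
      mul_le_mul_of_nonneg_right e2 hN0.le
    have c2 : q.c₀ * Real.exp (d.u0 z) ≤ 1 / 100 * Real.exp (d.u0 z) :=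
      mul_le_mul_of_nonneg_right hc1 hE0.le
    have c3 : 1 * Real.exp (d.u0 z) ≤ q.nm * Real.exp (d.u0 z) :=
      mul_le_mul_of_nonneg_right hq.nm1 hE0.le
    linarith
  rcases h.win hw hl0 hl1 (u := d.u0 z) (by linarith) w1 w2 with ⟨-, -, w⟩ | ⟨-, -, w⟩
  · exact ⟨9 / 10, le_rfl, by norm_num, w⟩
  · exact ⟨2, by norm_num, le_rfl, w⟩

/-- The window on the layer `r ~ c₀`. -/
structure Mc (q : Cst) (d : Pk n) (z : VV n) : Prop where
  r0 : 4 / 5 * q.c₀ ≤ rr z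
  r1 : rr z ≤ 203 / 100 * q.c₀
  lo : 1 / 5 * (rr z * d.E q z) ≤ d.N q z
  up : d.N q z ≤ 7 * q.c₀ * d.E q z
  K : 9 / 10 * d.N q z ≤ d.Kf q z

theorem Mc.of (hq : DB n q) (h : PkOk q d) (hn : NO q d z) (hT : Tb q d z (8 / 5 * q.rT))
    (g1 : d.r2 z ≤ 4 * q.c₀ ^ 2) (g2 : 64 / 100 * q.c₀ ^ 2 < qq z) : Mc q d z := by
  have L := M0.of hq h hT g1 g2
  obtain ⟨f, f1, f2, W⟩ := L.win hq h hn
  have hc0 := hq.c₀0
  have hr : 0 < rr z := by linarith [L.r0]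
  have hE0 := Real.exp_pos (d.u0 z)
  have hN0 : 0 < deriv d.Φ (d.u0 z) := h.N_pos hq.M1 _
  have n1 := L.n1
  have n2 := L.n2
  have n3 : rr z * Real.exp (d.u0 z) ≤ 203 / 100 * q.c₀ * Real.exp (d.u0 z) :=
    mul_le_mul_of_nonneg_right L.r1 hE0.le
  have hu := u_u0 h z
  have hu' := abs_le.1 hu
  have m1 := W.k1 (d.u q z) (by linarith)
  have m2 := W.k2 (d.u q z) (by linarith)
  obtain ⟨x4, x2⟩ := exp_q
  have hfu : |f * (d.u q z - d.u0 z)| ≤ 1 / 2 := by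
    rw [abs_mul, abs_of_nonneg (by linarith : (0 : ℝ) ≤ f)]
    nlinarith [abs_nonneg (d.u q z - d.u0 z)]
  have hfu' := abs_le.1 hfu
  have hEu := Real.exp_pos (d.u q z)
  -- exponentials
  have y1 : Real.exp (f * (d.u q z - d.u0 z)) ≤ 17 / 10 :=
    (Real.exp_le_exp.2 hfu'.2).trans x2
  have y2 : 1 / 2 ≤ Real.exp (f * (d.u q z - d.u0 z)) := by
    have := Real.add_one_le_exp (f * (d.u q z - d.u0 z))
    linarith
  have y0 : Real.exp (d.u0 z) = Real.exp (d.u0 z - d.u q z) * Real.exp (d.u q z) := by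
    rw [← Real.exp_add]
    ring_nf
  have y3 : Real.exp (d.u0 z) ≤ 13 / 10 * Real.exp (d.u q z) := by
    rw [y0]
    exact mul_le_mul_of_nonneg_right ((Real.exp_le_exp.2 (by linarith)).trans x4) hEu.le
  have y4 : 3 / 4 * Real.exp (d.u q z) ≤ Real.exp (d.u0 z) := by
    rw [y0]
    refine mul_le_mul_of_nonneg_right ?_ hEu.le
    have := Real.add_one_le_exp (d.u0 z - d.u q z)
    linarith
  have z1 : deriv d.Φ (d.u q z) ≤ deriv d.Φ (d.u0 z) * (17 / 10) := by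
    rw [m1]
    exact mul_le_mul_of_nonneg_left y1 hN0.le
  have z2 : deriv d.Φ (d.u0 z) * (1 / 2) ≤ deriv d.Φ (d.u q z) := by
    rw [m1]
    exact mul_le_mul_of_nonneg_left y2 hN0.le
  have z3 : 3 / 4 * (rr z * Real.exp (d.u q z)) ≤ rr z * Real.exp (d.u0 z) := by
    have := mul_le_mul_of_nonneg_left y4 hr.le
    linarith
  have z4 : q.c₀ * Real.exp (d.u0 z) ≤ 13 / 10 * (q.c₀ * Real.exp (d.u q z)) := by
    have := mul_le_mul_of_nonneg_left y3 hc0.le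
    linarith
  have hcE : 0 < q.c₀ * Real.exp (d.u q z) := by positivity
  have hrE : 0 < rr z * Real.exp (d.u q z) := by positivity
  clear y1 y2 y3 y4 y0 m1 hfu hfu' hu hu' x4 x2
  refine ⟨L.r0, L.r1, ?_, ?_, ?_⟩
  · show 1 / 5 * (rr z * Real.exp (d.u q z)) ≤ deriv d.Φ (d.u q z)
    linarith
  · show deriv d.Φ (d.u q z) ≤ 7 * q.c₀ * Real.exp (d.u q z)
    linarith
  · show 9 / 10 * deriv d.Φ (d.u q z) ≤ deriv (deriv d.Φ) (d.u q z)
    rw [m2]
    exact mul_le_mul_of_nonneg_right f1 (h.N_pos hq.M1 _).le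

theorem Mc.z0 (hq : DB n q) (h : PkOk q d) (hL : Mc q d z) (h1 : d.ch q .z0 z ≠ 0) : False := by
  have hN : 0 < d.N q z := h.N_pos hq.M1 _
  have hE : 0 < d.E q z := Real.exp_pos _
  have a1 := sd_z0 h1 (hq.cp d h) hq.aC0 hN
  have a2 := hL.up
  have a3 := mul_le_mul_of_nonneg_right hq.k1 hE.le
  have a4 : 0 < q.c₀ * d.E q z := mul_pos hq.c₀0 hE
  linarith

theorem Mc.z2a (hq : DB n q) (h : PkOk q d) (hL : Mc q d z) (h1 : d.ch q .z2a z ≠ 0) :
    False := by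
  have hE : 0 < d.E q z := Real.exp_pos _
  have hc0 := hq.c₀0
  have a1 := sd_z2a h1 (hq.cp d h)
  have a2 := hL.lo
  have a3 := hL.K
  have r0 := hL.r0
  have r1 := hL.r1
  have hr : 0 < rr z := by linarith
  have hrE : 0 < rr z * d.E q z := by positivity
  have hcK := hq.cK0
  have a4 : q.cK * (18 / 100 * (rr z * d.E q z)) ≤ q.cK * d.Kf q z :=
    mul_le_mul_of_nonneg_left (by linarith) hcK.le
  have a5 : d.m q z ≤ 21 / 10 * q.c₀ * (rr z * d.E q z) := by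
    unfold Pk.m
    have b1 := (hq.met d h z).2
    have b2 : d.r2 z ≤ 21 / 10 * q.c₀ * rr z := by nlinarith
    nlinarith
  have a6 : 100 * q.c₀ * (rr z * d.E q z) ≤ q.cK * (rr z * d.E q z) :=
    mul_le_mul_of_nonneg_right hq.k2 hrE.le
  have a7 : 0 < q.c₀ * (rr z * d.E q z) := by positivity
  linarith

theorem Mc.zB (hq : DB n q) (h : PkOk q d) (hL : Mc q d z) (hk : k = .zB ∨ k = .z2b)
    (h1 : d.ch q k z ≠ 0) : False := by
  have hE : 0 < d.E q z := Real.exp_pos _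
  have hN : 0 < d.N q z := h.N_pos hq.M1 _
  have hc0 := hq.c₀0
  have a1 := zB_log hq h hk h1
  have a2 := hL.lo
  have r0 := hL.r0
  have a3 : q.c₀ / 10 * d.E q z ≤ d.N q z := by
    have := mul_le_mul_of_nonneg_right r0 hE.le
    have : 0 < q.c₀ * d.E q z := by positivity
    linarith
  have a4 := Real.log_le_log (mul_pos (by linarith) hE) a3
  rw [Real.log_mul (by positivity) hE.ne'] at a4
  have a5 : Real.log (d.E q z) = d.u q z := by
    unfold Pk.E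
    rw [Real.log_exp]
  rw [a5] at a4
  have a6 := log_N hq h (d.u q z)
  have e : Real.log (d.N q z) = Real.log (deriv d.Φ (d.u q z)) := rfl
  rw [← e] at a6
  have a7 := hq.k5
  linarith

/-- **The near leaves `z0`, `z2a`, `z2b`, `zB` are dead on `TE`.** -/
theorem near_dead (hq : DB n q) (h : PkOk q d) (hz : TE q d z)
    (hk : k = .z0 ∨ k = .z2a ∨ k = .z2b ∨ k = .zB) : d.ch q k z = 0 := by
  by_contra h1
  have hkn : Near k := by rcases hk with rfl | rfl | rfl | rfl <;> unfold Near <;> decide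
  have g1 := sd_r h1 hkn (hq.cp d h)
  have hL := Mc.of hq h hz.no hz.tb g1 hz.q1
  rcases hk with rfl | rfl | rfl | rfl
  · exact hL.z0 hq h h1
  · exact hL.z2a hq h h1
  · exact hL.zB hq h (Or.inr rfl) h1
  · exact hL.zB hq h (Or.inl rfl) h1

end Vale.Agent.P088.R2.H820.E
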