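import Vale.Agent.P088.R2.H455.E.Lett
import Vale.Agent.P088.R2.H552.E.DeadA
import Vale.Agent.P088.R2.H509.EP.TG
import Vale.Agent.P088.R2.H710.EP.GR

/-!
# P088, stage 3, EST': the support of the costs of the tubes

`TE q d z`: what follows from `etx q d z ≠ 0` or `ety q d z ≠ 0`.
-/

open MeasureTheory Set Filter
open scoped ContDiff Topology

set_option linter.unusedSectionVars false

noncomputable section

namespace Vale.Agent.P088.R2.H820.E

open Vale.Agent.P088.LR Vale.Agent.P088.R2.H31.EP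
open Vale.Agent.P088.HY hiding rr
open Vale.Agent.P088.R2.H710.GP
open Vale.Agent.P088.R2.H404.INF hiding l₀_eq tinf_eq thi_eq tfs_eq
open Vale.Agent.P088.R2.H867.EP
open Vale.Agent.P088.R2.H552.E (DC evD lt_far3)
open Vale.Agent.P088.R2.H509.TG (GT evGT TR p₃ p₃_ge p₃_lt)
open Vale.Agent.P088.R2.H354.T (bq etx ety etx_supp ety_supp rt)

variable {n : ℕ}

/-- The conditions on the constants. -/
structure TC (n : ℕ) (q : Cst) : Prop where
  gt : GT n q
  dc : DC n q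
  nM : 2 * q.nm ≤ q.M₀
  R : 5 * bq q ≤ (q.κ₁ * q.R) ^ 2
  R1 : 1 ≤ q.R
  sm : ∀ d : Pk n, PkOk q d → LitSm q d
  χ : ∀ d : Pk n, PkOk q d → ∀ z : VV n, 4 < d.r2 z → d.u q z = d.u0 z

theorem evTC (n : ℕ) : EvC (TC n) := by
  have h1 : EvC fun q => 2 * q.nm ≤ q.M₀ :=
    EvC.at_M₀ (fun q t => 2 * q.nm ≤ t) fun q => eventually_ge_atTop _
  have h2 : EvC fun q => 0 < q.κ₁ → 5 * bq q ≤ (q.κ₁ * q.R) ^ 2 :=
    EvC.at_R (fun q t => 0 < q.κ₁ → 5 * bq q ≤ (q.κ₁ * t) ^ 2) fun q => by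
      by_cases h : 0 < q.κ₁
      · refine ev_top (√(5 * bq q) / q.κ₁) fun t ht _ => ?_
        rw [div_le_iff₀ h] at ht
        have h4 := Real.sqrt_nonneg (5 * bq q)
        have h5 : √(5 * bq q) ^ 2 ≤ (q.κ₁ * t) ^ 2 := pow_le_pow_left₀ h4 (by linarith) 2
        have h6 : 0 ≤ bq q := sq_nonneg _
        rwa [Real.sq_sqrt (by positivity)] at h5
      · exact Eventually.of_forall fun _ h1 => absurd h1 h
  refine (((evGT n).and (evD n)).and ((h1.and h2).and ((EvC.litSm n).and EvC.pos))).mono ?_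
  rintro q ⟨⟨a1, a2⟩, ⟨a3, a4⟩, a5, -, -, -, -, -, -, -, a6⟩
  refine ⟨a1, a2, a3, a4 a1.gc.inf.κ0, a6, a5, fun d h z hz => ?_⟩
  have e : (d.F q).χ (H31.EP.r2 (gi d.s₁) z) = 0 := h.χ0 _ (le_of_lt hz)
  show H31.EP.uu (d.F q) d.l (gi d.s₁) z = _
  unfold H31.EP.uu
  rw [e]
  unfold Pk.u0
  ring

variable {q : Cst} {d : Pk n} {z : VV n} {j : Zo}

/-- The region. -/
structure TE (q : Cst) (d : Pk n) (z : VV n) : Prop where
  no : NO q d z
  q1 : 64 / 100 * q.c₀ ^ 2 < qq z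
  q2 : qq z < 11 / 10 * bq q
  r0 : 0 < rr z
  r1 : rr z < 7 / 5 * q.p₁
  tb : Tb q d z (8 / 5 * q.rT)
  tinf : d.tinf q z = 0
  N0 : q.ν₁ / 2 * Real.exp (d.u0 z) < deriv d.Φ (d.u0 z)
  N1 : deriv d.Φ (d.u0 z) ≤ q.nm / 4 * Real.exp (d.u0 z)
  g : en (gx d q z) ≤ 8 / 5 * q.rT * d.NG q z ∨ en (gy d q z) ≤ 8 / 5 * q.rT * d.NG q z

theorem nu_pos (hq : TC n q) : 0 < q.ν₁ := hq.gt.wc.ν₁

theorem bq_pos (hq : TC n q) : 0 < bq q := by
  have := p₃_ge hq.gt.gc.rad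
  unfold p₃ at this
  unfold bq
  positivity

theorem tx_lt3 (hq : TC n q) (h : PkOk q d) (ht : d.tx q q.rT z < 3) :
    en (gx d q z) ≤ 8 / 5 * q.rT * d.NG q z := by
  have hNG := NG_pos hq.gt.gc h z
  have hrT := hq.gt.gc.rT0
  unfold Pk.tx at ht
  rw [sq_gx] at ht
  have h0 : 0 < (q.rT * d.NG q z) ^ 2 := by positivity
  have h1 : 4 * en (gx d q z) ^ 2 / (q.rT * d.NG q z) ^ 2 < 10 := by linarith
  rw [div_lt_iff₀ h0] at h1
  exact (abs_le_of_sq_le_sq' (by nlinarith) (by positivity)).2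

theorem ty_lt3 (hq : TC n q) (h : PkOk q d) (ht : d.ty q q.rT z < 3) :
    en (gy d q z) ≤ 8 / 5 * q.rT * d.NG q z := by
  have hNG := NG_pos hq.gt.gc h z
  have hrT := hq.gt.gc.rT0
  unfold Pk.ty at ht
  rw [sq_gy] at ht
  have h0 : 0 < (q.rT * d.NG q z) ^ 2 := by positivity
  have h1 : 4 * en (gy d q z) ^ 2 / (q.rT * d.NG q z) ^ 2 < 10 := by linarith
  rw [div_lt_iff₀ h0] at h1
  exact (abs_le_of_sq_le_sq' (by nlinarith) (by positivity)).2

theorem te_of (hq : TC n q) (h : PkOk q d) (q1 : 64 / 100 * q.c₀ ^ 2 < qq z)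
    (q2 : qq z < 11 / 10 * bq q) (r1 : q.ν₁ / 2 < rt d z) (r2 : rt d z < 2 * q.nm)
    (hu : d.u0 z < d.uta q + 1)
    (hg : en (gx d q z) ≤ 8 / 5 * q.rT * d.NG q z ∨ en (gy d q z) ≤ 8 / 5 * q.rT * d.NG q z) :
    TE q d z := by
  have hi := hq.gt.gc.inf
  have hR := hi.R0
  have hE := Real.exp_pos (d.u0 z)
  have hN := h.N_ge (d.u0 z)
  have hrT := hq.gt.gc.rT1
  have hrT0 := hq.gt.gc.rT0
  unfold rt at r1 r2
  rw [lt_div_iff₀ hE] at r1
  rw [div_lt_iff₀ hE] at r2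
  have hu0 : 0 ≤ d.u0 z := by
    by_contra hc
    have h1 : Real.exp (d.u0 z) ≤ 1 := Real.exp_le_one_iff.2 (not_le.1 hc).le
    have h2 := hq.nM
    have h3 : 0 < q.nm := hq.gt.wc.nm
    nlinarith
  have c1 : 0 < q.c₀ := hq.gt.c0
  have r0 : 0 < rr z := by
    have h2 : 0 < rr z ^ 2 := by rw [rr_sq]; nlinarith
    have h3 := rr_nn z
    rcases h3.eq_or_lt with h4 | h4
    · rw [← h4] at h2; norm_num at h2
    · exact h4
  have hp3 := p₃_lt hq.gt.gc.rad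
  have hp3' := p₃_ge hq.gt.gc.rad
  have hp1 := Cst.p₁_ge hq.gt.gc.rad
  have hrr : rr z ≤ 2 * q.p₁ := by
    have h1 : rr z ^ 2 < 11 / 10 * p₃ q ^ 2 := by rw [rr_sq]; exact q2
    have h2 : 11 / 10 * p₃ q ^ 2 ≤ (2 * q.p₁) ^ 2 := by nlinarith
    exact (abs_le_of_sq_le_sq' (h1.le.trans h2) (by linarith)).2
  have tz : d.tinf q z = 0 := by
    have hκ : 0 < (q.κ₁ * q.R) ^ 2 := by have := hi.κ0; positivity
    have hR1 := hq.gt.wc.R
    unfold Pk.tinf
    rw [Real.smoothTransition.zero_of_nonpos, Real.smoothTransition.zero_of_nonpos,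
      Real.smoothTransition.zero_of_nonpos]
    · norm_num
    · have e : d.uta q = 2 * d.l₀ q + 45 / 10 * q.R := rfl
      rw [e] at hu
      have : 20 * (d.u0 z - 2 * d.l₀ q) / q.R ≤ 92 := by
        rw [div_le_iff₀ hR]
        linarith
      linarith
    · have h6 : 0 ≤ q.σ / q.R * d.u0 z := mul_nonneg (div_nonneg hi.σ0.le hR.le) hu0
      linarith
    · have : 4 * qq z / (q.κ₁ * q.R) ^ 2 ≤ 1 := by
        rw [div_le_one hκ]
        have h5 := hq.R
        have := bq_pos hq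
        linarith
      linarith
  have hN' : NO q d z := by
    refine near_alive (lvG hi h) hi.κ0 hi.κ1 ?_
    rw [← Pk.tinf_eq, tz]
    norm_num
  have ht : 8 / 5 * q.rT ≤ 1 / 20 := by linarith
  have hT : Tb q d z (8 / 5 * q.rT) := by
    rcases hg with hg | hg
    · exact tb_x hq.gt.gc h hN' r0 hrr ht hg
    · exact tb_y hq.gt.gc h hN' r0 hrr ht hg
  exact ⟨hN', q1, q2, r0, lt_far3 hq.gt.gc h hT (by linarith), hT, tz, r1,
    hT.N_nm hq.gt.gc h r0 hrr ht, hg⟩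

theorem te_x (hq : TC n q) (h : PkOk q d) (hz : etx q d z ≠ 0) :
    TE q d z ∧ en (gx d q z) ≤ 8 / 5 * q.rT * d.NG q z := by
  obtain ⟨⟨a1, a2⟩, a3, ⟨a4, a5⟩, a6⟩ := etx_supp hq.gt.c0 (bq_pos hq) (nu_pos hq)
    hq.gt.wc.nm hz
  have hg := tx_lt3 hq h a3
  exact ⟨te_of hq h a1 a2 a4 a5 a6 (Or.inl hg), hg⟩

theorem te_y (hq : TC n q) (h : PkOk q d) (hz : ety q d z ≠ 0) :
    TE q d z ∧ en (gy d q z) ≤ 8 / 5 * q.rT * d.NG q z := by
  obtain ⟨⟨a1, a2⟩, a3, ⟨a4, a5⟩, a6⟩ := ety_supp hq.gt.c0 (bq_pos hq) (nu_pos hq)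
    hq.gt.wc.nm hz
  have hg := ty_lt3 hq h a3
  exact ⟨te_of hq h a1 a2 a4 a5 a6 (Or.inr hg), hg⟩

/-- The region of helper509. -/
theorem TE.tr (hq : TC n q) (h : PkOk q d) (hz : TE q d z) (h2 : qq z ≤ bq q) : TR q d z := by
  have hNG := NG_pos hq.gt.gc h z
  have hrT := hq.gt.gc.rT0
  have h3 : 8 / 5 * q.rT * d.NG q z ≤ 2 * q.rT * d.NG q z := by
    have : 0 < q.rT * d.NG q z := by positivity
    nlinarith
  refine ⟨hz.no, ?_, h2, ?_⟩
  · have := hz.q1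
    have := sq_nonneg q.c₀
    linarith
  · rcases hz.g with hg | hg
    · exact Or.inl (hg.trans h3)
    · exact Or.inr (hg.trans h3)

/-! ## The dead leaves -/

theorem inf_dead (hz : TE q d z) (hk : Inf j) : d.ch q j z = 0 := by
  by_contra hc
  have h1 : 0 < d.tinf q z := H867.EP.alive_inf Fl_pair hc hk
  rw [hz.tinf] at h1
  exact absurd h1 (lt_irrefl _)

theorem p3_big (hq : TC n q) : 400 ≤ p₃ q := by
  have hr := hq.gt.gc.rad
  have h1 := hr.big (hr.one_le (t := 1 / 10) (by norm_num))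
    (hr.L_le (t := 1 / 10) (by norm_num) (hr.one_le (by norm_num)) (hr.gr_le (by norm_num)))
  have h2 := hr.num
  have h3 : 400 ≤ 4 / q.e₁ := by
    rw [le_div_iff₀ hr.e0]
    linarith [hr.e1]
  exact h3.trans (h2.trans h1)

theorem RS_dead (hq : TC n q) (h : PkOk q d) (hz : TE q d z) (hk : RS j) :
    d.ch q j z = 0 := by
  by_contra hc
  have h1 : 0 < d.VS q (d.u q z) := alive_RS (P := d.cp q) (u := d.u q) Fl_pair hc hk
  rcases le_or_gt (qq z) (bq q) with h2 | h2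
  · rw [(hz.tr hq h h2).VS hq.gt h] at h1
    exact absurd h1 (lt_irrefl _)
  · have h3 := p3_big hq
    have h4 : 4 < d.r2 z := by
      have h5 := (hq.dc.met d h z).1
      have h6 : bq q = p₃ q ^ 2 := rfl
      rw [rr_sq] at h5
      rw [h6] at h2
      nlinarith
    rw [hq.χ d h z h4] at h1
    have hN := h.N_pos hq.gt.gc.M1 (d.u0 z)
    have hE := Real.exp_pos (d.u0 z)
    have hn := hq.gt.wc.nm
    have h5 : deriv d.Φ (d.u0 z) ≤ q.nm * Real.exp (d.u0 z) := by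
      have := hz.N1
      have : 0 < q.nm * Real.exp (d.u0 z) := by positivity
      linarith
    have h6 := Real.log_le_log hN h5
    rw [Real.log_mul hn.ne' hE.ne', Real.log_exp] at h6
    unfold Pk.VS at h1
    rw [Real.smoothTransition.zero_of_nonpos (by linarith), zero_mul] at h1
    exact absurd h1 (lt_irrefl _)

theorem Af_dead (hq : TC n q) (h : PkOk q d) (hz : TE q d z) : d.ch q .Af z = 0 := by
  by_contra hc
  have hp1 := Cst.p₁_ge hq.gt.gc.rad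
  have h1 := sd_Af hc (hq.dc.cp d h)
  have h2 := (hq.dc.met d h z).2
  have h3 := hz.r1
  have h4 := hz.r0
  have h5 : rr z ^ 2 ≤ (7 / 5 * q.p₁) ^ 2 := pow_le_pow_left₀ h4.le h3.le 2
  nlinarith

/-- The leaves of the other tubes are dead where `|W_x|` is small. -/
theorem x_dead (hq : TC n q) (h : PkOk q d) (hz : TE q d z)
    (hg : en (gx d q z) ≤ 8 / 5 * q.rT * d.NG q z) (hj : j = .T2 ∨ j = .P2 ∨ j = .A2) :
    d.ch q j z = 0 := by
  by_contra hc
  have hNG := NG_pos hq.gt.gc h z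
  have hrT := hq.gt.gc.rT0
  have hrT1 := hq.gt.gc.rT1
  have hp1 := Cst.p₁_ge hq.gt.gc.rad
  have h1 := oth_x hq.gt.gc h hz.no hz.r0 (by linarith [hz.r1]) (by linarith) hg
  have hp : 0 < q.rT * d.NG q z := by positivity
  have h4 : q.rT * d.NG q z ≤ 1 / 400 * d.NG q z := mul_le_mul_of_nonneg_right hrT1 hNG.le
  rcases hj with rfl | rfl | rfl
  · have h2 := sd_T2 hrT hNG hc
    rw [sq_gy] at h2
    have h3 : en (gy d q z) < q.rT * d.NG q z := lt_of_pow_lt_pow_left₀ 2 (by positivity) h2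
    linarith
  · have h2 := sd_P2 hrT hNG hc
    rw [sq_gy] at h2
    have h3 : en (gy d q z) < 4 * q.rT * d.NG q z :=
      lt_of_pow_lt_pow_left₀ 2 (by positivity) h2
    linarith
  · have h2 := sd_nP1 hrT hNG hc (Or.inr rfl)
    rw [sq_gx] at h2
    have h3 : 2 * q.rT * d.NG q z < en (gx d q z) :=
      lt_of_pow_lt_pow_left₀ 2 (en_nn _) h2
    linarith

/-- The leaves of the other tubes are dead where `|W_y|` is small. -/
theorem y_dead (hq : TC n q) (h : PkOk q d) (hz : TE q d z)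
    (hg : en (gy d q z) ≤ 8 / 5 * q.rT * d.NG q z) (hj : j = .T1 ∨ j = .P1 ∨ j = .A2) :
    d.ch q j z = 0 := by
  by_contra hc
  have hNG := NG_pos hq.gt.gc h z
  have hrT := hq.gt.gc.rT0
  have hrT1 := hq.gt.gc.rT1
  have hp1 := Cst.p₁_ge hq.gt.gc.rad
  have h1 := oth_y hq.gt.gc h hz.no hz.r0 (by linarith [hz.r1]) (by linarith) hg
  have hp : 0 < q.rT * d.NG q z := by positivity
  have h4 : q.rT * d.NG q z ≤ 1 / 400 * d.NG q z := mul_le_mul_of_nonneg_right hrT1 hNG.le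
  rcases hj with rfl | rfl | rfl
  · have h2 := sd_T1 hrT hNG hc
    rw [sq_gx] at h2
    have h3 : en (gx d q z) < q.rT * d.NG q z := lt_of_pow_lt_pow_left₀ 2 (by positivity) h2
    linarith
  · have h2 := sd_P1 hrT hNG hc
    rw [sq_gx] at h2
    have h3 : en (gx d q z) < 4 * q.rT * d.NG q z :=
      lt_of_pow_lt_pow_left₀ 2 (by positivity) h2
    linarith
  · have h2 := sd_A2 hrT hNG hc
    rw [sq_gy] at h2
    have h3 : 2 * q.rT * d.NG q z < en (gy d q z) :=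
      lt_of_pow_lt_pow_left₀ 2 (en_nn _) h2
    linarith

end Vale.Agent.P088.R2.H820.E
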